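import Mathlib

namespace Vale.Agent.Results.P262.PrefixLower

open Finset

/-- planar forcing predicate: every signing of the list, started from `(a,b)`, has a prefix
of squared norm at least `T`. -/
def PF (T : ℝ) : ℝ → ℝ → List (ℝ × ℝ) → Prop
  | a, b, [] => T ≤ a ^ 2 + b ^ 2
  | a, b, w :: l =>
      T ≤ a ^ 2 + b ^ 2 ∨ (PF T (a + w.1) (b + w.2) l ∧ PF T (a - w.1) (b - w.2) l)

lemma PF_of_le {T a b : ℝ} (h : T ≤ a ^ 2 + b ^ 2) (l : List (ℝ × ℝ)) : PF T a b l := by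
  cases l with
  | nil => exact h
  | cons w l => exact Or.inl h

lemma PF_neg {T : ℝ} (l : List (ℝ × ℝ)) : ∀ a b : ℝ, PF T a b l → PF T (-a) (-b) l := by
  induction l with
  | nil => intro a b h; simpa [PF] using h
  | cons w l ih =>
    intro a b h
    rcases h with h | ⟨h1, h2⟩
    · exact Or.inl (by simpa using h)
    · refine Or.inr ⟨?_, ?_⟩
      · have := ih _ _ h2
        have e1 : -a + w.1 = -(a - w.1) := by ring
        have e2 : -b + w.2 = -(b - w.2) := by ring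
        rw [e1, e2]; exact this
      · have := ih _ _ h1
        have e1 : -a - w.1 = -(a + w.1) := by ring
        have e2 : -b - w.2 = -(b + w.2) := by ring
        rw [e1, e2]; exact this

lemma exists_unit (a b c : ℝ) (hx : c ^ 2 ≤ a ^ 2 + b ^ 2) (hpos : 0 < a ^ 2 + b ^ 2) :
    ∃ α β : ℝ, α ^ 2 + β ^ 2 = 1 ∧ a * α + b * β = -c := by
  set x := a ^ 2 + b ^ 2 with hxdef
  set t := Real.sqrt (x - c ^ 2) with ht
  have ht2 : t ^ 2 = x - c ^ 2 := Real.sq_sqrt (by linarith)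
  refine ⟨(-c * a - t * b) / x, (-c * b + t * a) / x, ?_, ?_⟩
  · have hne : x ≠ 0 := ne_of_gt hpos
    field_simp
    have : (-c * a - t * b) ^ 2 + (-c * b + t * a) ^ 2 = (c ^ 2 + t ^ 2) * (a ^ 2 + b ^ 2) := by ring
    rw [ht2] at this
    nlinarith [this]
  · have hne : x ≠ 0 := ne_of_gt hpos
    field_simp
    have : a * (-c * a - t * b) + b * (-c * b + t * a) = -c * (a ^ 2 + b ^ 2) := by ring
    nlinarith [this]

lemma base (T a b : ℝ) (h1 : 1 ≤ a ^ 2 + b ^ 2) (hT : T ≤ a ^ 2 + b ^ 2 + 1) :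
    ∃ l : List (ℝ × ℝ), (∀ w ∈ l, w.1 ^ 2 + w.2 ^ 2 = 1) ∧ PF T a b l := by
  obtain ⟨α, β, hu, hi⟩ := exists_unit a b 0 (by nlinarith) (by linarith)
  refine ⟨[(α, β)], ?_, ?_⟩
  · intro w hw
    simp only [List.mem_singleton] at hw
    subst hw
    exact hu
  · refine Or.inr ⟨?_, ?_⟩
    · change T ≤ (a + α) ^ 2 + (b + β) ^ 2
      nlinarith
    · change T ≤ (a - α) ^ 2 + (b - β) ^ 2
      nlinarith

lemma core (T : ℝ) (hT3 : T ≤ 3) : ∀ n : ℕ, ∀ a b : ℝ, 1 ≤ a ^ 2 + b ^ 2 →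
    1 ≤ 2 ^ n * (a ^ 2 + b ^ 2 - T + 2) →
    ∃ l : List (ℝ × ℝ), (∀ w ∈ l, w.1 ^ 2 + w.2 ^ 2 = 1) ∧ PF T a b l := by
  intro n
  induction n with
  | zero =>
    intro a b h1 h2
    exact base T a b h1 (by simp at h2; linarith)
  | succ n ih =>
    intro a b h1 h2
    by_cases hc : T ≤ a ^ 2 + b ^ 2 + 1
    · exact base T a b h1 hc
    · push Not at hc
      set c := (T - 1 - (a ^ 2 + b ^ 2)) / 2 with hcdef
      have hc0 : 0 < c := by rw [hcdef]; linarith
      have hc1 : c ≤ 1 / 2 := by rw [hcdef]; linarith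
      obtain ⟨α, β, hu, hi⟩ := exists_unit a b c (by nlinarith) (by linarith)
      have hx' : (a + α) ^ 2 + (b + β) ^ 2 = 2 * (a ^ 2 + b ^ 2) + 2 - T := by
        have : (a + α) ^ 2 + (b + β) ^ 2 = a ^ 2 + b ^ 2 + (α ^ 2 + β ^ 2) + 2 * (a * α + b * β) := by
          ring
        rw [this, hu, hi, hcdef]; ring
      have hy' : (a - α) ^ 2 + (b - β) ^ 2 = T := by
        have : (a - α) ^ 2 + (b - β) ^ 2 = a ^ 2 + b ^ 2 + (α ^ 2 + β ^ 2) - 2 * (a * α + b * β) := by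
          ring
        rw [this, hu, hi, hcdef]; ring
      obtain ⟨l, hl, hP⟩ := ih (a + α) (b + β) (by rw [hx']; linarith) (by
        rw [hx']
        have : (2:ℝ) ^ (n + 1) * (a ^ 2 + b ^ 2 - T + 2)
            = 2 ^ n * (2 * (a ^ 2 + b ^ 2) + 2 - T - T + 2) := by ring
        linarith)
      refine ⟨(α, β) :: l, ?_, ?_⟩
      · intro w hw
        rcases List.mem_cons.mp hw with h | h
        · subst h; exact hu
        · exact hl w h
      · exact Or.inr ⟨hP, PF_of_le (le_of_eq hy'.symm) l⟩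

lemma PF_signs {T : ℝ} (l : List (ℝ × ℝ)) : ∀ a b : ℝ, PF T a b l →
    ∀ ε : ℕ → ℝ, (∀ i, ε i = 1 ∨ ε i = -1) → ∃ k ≤ l.length,
      T ≤ (a + ∑ i ∈ range k, ε i * (l.getD i (0, 0)).1) ^ 2
        + (b + ∑ i ∈ range k, ε i * (l.getD i (0, 0)).2) ^ 2 := by
  induction l with
  | nil =>
    intro a b h ε _
    exact ⟨0, le_refl _, by simpa [PF] using h⟩
  | cons w l ih =>
    intro a b h ε hε
    rcases h with h | ⟨h1, h2⟩
    · exact ⟨0, Nat.zero_le _, by simpa using h⟩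
    · rcases hε 0 with h0 | h0
      · obtain ⟨k, hk, hk2⟩ := ih _ _ h1 (fun i => ε (i + 1)) (fun i => hε (i + 1))
        refine ⟨k + 1, by simpa using hk, ?_⟩
        rw [Finset.sum_range_succ', Finset.sum_range_succ']
        simp only [List.getD_cons_succ, List.getD_cons_zero, h0, one_mul]
        have e1 : a + (∑ i ∈ range k, ε (i + 1) * (l.getD i (0, 0)).1 + w.1)
            = a + w.1 + ∑ i ∈ range k, ε (i + 1) * (l.getD i (0, 0)).1 := by ring
        have e2 : b + (∑ i ∈ range k, ε (i + 1) * (l.getD i (0, 0)).2 + w.2)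
            = b + w.2 + ∑ i ∈ range k, ε (i + 1) * (l.getD i (0, 0)).2 := by ring
        rw [e1, e2]; exact hk2
      · obtain ⟨k, hk, hk2⟩ := ih _ _ h2 (fun i => ε (i + 1)) (fun i => hε (i + 1))
        refine ⟨k + 1, by simpa using hk, ?_⟩
        rw [Finset.sum_range_succ', Finset.sum_range_succ']
        simp only [List.getD_cons_succ, List.getD_cons_zero, h0]
        have e1 : a + (∑ i ∈ range k, ε (i + 1) * (l.getD i (0, 0)).1 + -1 * w.1)
            = a - w.1 + ∑ i ∈ range k, ε (i + 1) * (l.getD i (0, 0)).1 := by ring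
        have e2 : b + (∑ i ∈ range k, ε (i + 1) * (l.getD i (0, 0)).2 + -1 * w.2)
            = b - w.2 + ∑ i ∈ range k, ε (i + 1) * (l.getD i (0, 0)).2 := by ring
        rw [e1, e2]; exact hk2

/-- planar statement -/
lemma planar (η : ℝ) (hη : 0 < η) : ∃ l : List (ℝ × ℝ), (∀ w ∈ l, w.1 ^ 2 + w.2 ^ 2 = 1) ∧
    ∀ ε : ℕ → ℝ, (∀ i, ε i = 1 ∨ ε i = -1) → ∃ k ≤ l.length,
      3 - η ≤ (∑ i ∈ range k, ε i * (l.getD i (0, 0)).1) ^ 2
        + (∑ i ∈ range k, ε i * (l.getD i (0, 0)).2) ^ 2 := by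
  obtain ⟨n, hn⟩ := pow_unbounded_of_one_lt (1 / η) (by norm_num : (1:ℝ) < 2)
  have hn' : 1 ≤ 2 ^ n * η := by
    have := (div_lt_iff₀ hη).mp hn
    linarith
  obtain ⟨l, hl, hP⟩ := core (3 - η) (by linarith) n 1 0 (by norm_num) (by
    have : (1:ℝ) ^ 2 + 0 ^ 2 - (3 - η) + 2 = η := by ring
    rw [this]; exact hn')
  refine ⟨(1, 0) :: l, ?_, ?_⟩
  · intro w hw
    rcases List.mem_cons.mp hw with h | h
    · subst h; norm_num
    · exact hl w h
  · intro ε hε
    have hPF : PF (3 - η) 0 0 ((1, 0) :: l) := by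
      refine Or.inr ⟨by simpa using hP, ?_⟩
      have := PF_neg l _ _ hP
      simpa using this
    obtain ⟨k, hk, h⟩ := PF_signs _ _ _ hPF ε hε
    exact ⟨k, hk, by simpa using h⟩

/-- coordinates of the vectors of the hard sequence -/
noncomputable def g (d : ℕ) (l : List (ℝ × ℝ)) (i j : ℕ) : ℝ :=
  if i < d then (if 2 ≤ i ∧ j = i then 1 else 0)
  else if j = 0 then (l.getD (i - d) (0, 0)).1
  else if j = 1 then (l.getD (i - d) (0, 0)).2 else 0

noncomputable def vec (d : ℕ) (l : List (ℝ × ℝ)) (i : ℕ) : EuclideanSpace ℝ (Fin d) :=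
  WithLp.toLp 2 (fun j : Fin d => g d l i j.val)

lemma normsq (d : ℕ) (h : ℕ → ℝ) :
    ‖(WithLp.toLp 2 (fun j : Fin d => h j.val) : EuclideanSpace ℝ (Fin d))‖ ^ 2
      = ∑ j ∈ range d, (h j) ^ 2 := by
  rw [EuclideanSpace.real_norm_sq_eq]
  simpa using Fin.sum_univ_eq_sum_range (fun j => (h j) ^ 2) d

lemma prefix_eq (d : ℕ) (l : List (ℝ × ℝ)) (ε : ℕ → ℝ) (k : ℕ) :
    ∑ i ∈ range k, ε i • vec d l i
      = WithLp.toLp 2 (fun j : Fin d => (fun j' : ℕ => ∑ i ∈ range k, ε i * g d l i j') j.val) := by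
  ext j
  simp [vec, WithLp.ofLp_sum]

lemma getD_sq_le (l : List (ℝ × ℝ)) (hl : ∀ w ∈ l, w.1 ^ 2 + w.2 ^ 2 = 1) (i : ℕ) :
    (l.getD i (0, 0)).1 ^ 2 + (l.getD i (0, 0)).2 ^ 2 ≤ 1 := by
  by_cases h : i < l.length
  · rw [List.getD_eq_getElem _ _ h]
    exact le_of_eq (hl _ (List.getElem_mem h))
  · rw [List.getD_eq_default _ _ (by omega)]
    norm_num

lemma vec_norm (d' : ℕ) (l : List (ℝ × ℝ)) (hl : ∀ w ∈ l, w.1 ^ 2 + w.2 ^ 2 = 1) (i : ℕ) :
    ‖vec (d' + 2) l i‖ ≤ 1 := by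
  have h2 : ‖vec (d' + 2) l i‖ ^ 2 ≤ 1 := by
    unfold vec
    rw [normsq (d' + 2) (fun j => g (d' + 2) l i j)]
    by_cases hi : i < d' + 2
    · have : ∀ j ∈ range (d' + 2), (g (d' + 2) l i j) ^ 2 = if j = i then (if 2 ≤ i then 1 else 0) else 0 := by
        intro j _
        unfold g
        rw [if_pos hi]
        by_cases h1 : j = i <;> by_cases h2 : 2 ≤ i <;> simp [h1, h2]
      rw [Finset.sum_congr rfl this, Finset.sum_ite_eq']
      split_ifs <;> norm_num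
    · rw [Finset.sum_range_succ', Finset.sum_range_succ']
      have : ∀ j ∈ range d', (g (d' + 2) l i (j + 1 + 1)) ^ 2 = 0 := by
        intro j _
        unfold g
        rw [if_neg hi]
        simp
      rw [Finset.sum_congr rfl this]
      unfold g
      simp only [if_neg hi]
      have hh := getD_sq_le l hl (i - (d' + 2))
      simp at hh ⊢
      linarith
  nlinarith [norm_nonneg (vec (d' + 2) l i)]

lemma prefix_normsq (d' : ℕ) (l : List (ℝ × ℝ)) (ε : ℕ → ℝ) (hε : ∀ i, ε i = 1 ∨ ε i = -1) (k : ℕ) :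
    ‖∑ i ∈ range (d' + 2 + k), ε i • vec (d' + 2) l i‖ ^ 2
      = d' + ((∑ i ∈ range k, ε (d' + 2 + i) * (l.getD i (0, 0)).1) ^ 2
        + (∑ i ∈ range k, ε (d' + 2 + i) * (l.getD i (0, 0)).2) ^ 2) := by
  rw [prefix_eq, normsq (d' + 2) (fun j' => ∑ i ∈ range (d' + 2 + k), ε i * g (d' + 2) l i j')]
  have hsplit : ∀ j : ℕ, ∑ i ∈ range (d' + 2 + k), ε i * g (d' + 2) l i j
      = (∑ i ∈ range (d' + 2), ε i * (if 2 ≤ i ∧ j = i then 1 else 0))
        + ∑ i ∈ range k, ε (d' + 2 + i) * (if j = 0 then (l.getD i (0, 0)).1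
            else if j = 1 then (l.getD i (0, 0)).2 else 0) := by
    intro j
    rw [Finset.sum_range_add]
    congr 1
    · apply Finset.sum_congr rfl
      intro i hi
      unfold g
      rw [if_pos (Finset.mem_range.mp hi)]
    · apply Finset.sum_congr rfl
      intro i _
      unfold g
      rw [if_neg (by omega)]
      simp
  simp only [hsplit]
  rw [Finset.sum_range_succ', Finset.sum_range_succ']
  have hbig : ∀ j ∈ range d', ((∑ i ∈ range (d' + 2), ε i * (if 2 ≤ i ∧ j + 1 + 1 = i then (1:ℝ) else 0))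
        + ∑ i ∈ range k, ε (d' + 2 + i) * (if j + 1 + 1 = 0 then (l.getD i (0, 0)).1
            else if j + 1 + 1 = 1 then (l.getD i (0, 0)).2 else 0)) ^ 2 = 1 := by
    intro j hj
    have hj' := Finset.mem_range.mp hj
    have h1 : ∑ i ∈ range (d' + 2), ε i * (if 2 ≤ i ∧ j + 1 + 1 = i then (1:ℝ) else 0) = ε (j + 2) := by
      have : ∀ i ∈ range (d' + 2), ε i * (if 2 ≤ i ∧ j + 1 + 1 = i then (1:ℝ) else 0)
          = if i = j + 2 then ε (j + 2) else 0 := by
        intro i _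
        by_cases h : i = j + 2
        · subst h; simp
        · have : ¬ (2 ≤ i ∧ j + 1 + 1 = i) := by omega
          simp [h, this]
      rw [Finset.sum_congr rfl this, Finset.sum_ite_eq']
      rw [if_pos (Finset.mem_range.mpr (by omega))]
    rw [h1]
    simp
    rcases hε (j + 2) with h | h <;> rw [h] <;> norm_num
  rw [Finset.sum_congr rfl hbig]
  have hz : ∀ j : ℕ, j < 2 → ∑ i ∈ range (d' + 2), ε i * (if 2 ≤ i ∧ j = i then (1:ℝ) else 0) = 0 := by
    intro j hj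
    apply Finset.sum_eq_zero
    intro i _
    have : ¬ (2 ≤ i ∧ j = i) := by omega
    simp [this]
  rw [hz 0 (by norm_num), hz (0 + 1) (by norm_num)]
  simp
  ring

lemma fin_prefix {E : Type*} [AddCommMonoid E] (N k : ℕ) (hk : k ≤ N) (F : ℕ → E) :
    ∑ i : Fin N with i.val < k, F i.val = ∑ i ∈ range k, F i := by
  rw [Finset.sum_filter, Fin.sum_univ_eq_sum_range (fun i => if i < k then F i else 0) N,
    ← Finset.sum_filter]
  apply Finset.sum_congr _ (fun _ _ => rfl)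
  ext i
  simp only [Finset.mem_filter, Finset.mem_range]
  omega

/-- Every constant `C` that bounds the signed prefix sums of all finite sequences in the Euclidean
unit ball of dimension `d ≥ 2` satisfies `C ≥ √(d+1)`; that is, `σ(d) ≥ √(d+1)`. -/
theorem result (d : ℕ) (hd : 2 ≤ d) (C : ℝ)
    (hC : ∀ (N : ℕ) (v : Fin N → EuclideanSpace ℝ (Fin d)), (∀ i, ‖v i‖ ≤ 1) →
      ∃ ε : Fin N → ℝ, (∀ i, ε i = 1 ∨ ε i = -1) ∧
        ∀ k ≤ N, ‖∑ i : Fin N with i.val < k, ε i • v i‖ ≤ C) :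
    Real.sqrt (d + 1) ≤ C := by
  obtain ⟨d', rfl⟩ : ∃ d', d = d' + 2 := ⟨d - 2, by omega⟩
  have key : ∀ η : ℝ, 0 < η → 0 ≤ C ∧ ((d' + 2 : ℕ) : ℝ) + 1 - η ≤ C ^ 2 := by
    intro η hη
    obtain ⟨l, hl, hsig⟩ := planar η hη
    obtain ⟨ε, hε, hb⟩ := hC (d' + 2 + l.length) (fun i => vec (d' + 2) l i.val)
      (fun i => vec_norm d' l hl i.val)
    set ε' : ℕ → ℝ := fun i => if h : i < d' + 2 + l.length then ε ⟨i, h⟩ else 1 with hε'def
    have hε' : ∀ i, ε' i = 1 ∨ ε' i = -1 := by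
      intro i
      simp only [hε'def]
      split_ifs with h
      · exact hε _
      · exact Or.inl rfl
    obtain ⟨k, hk, hk2⟩ := hsig (fun i => ε' (d' + 2 + i)) (fun i => hε' _)
    have hb' := hb (d' + 2 + k) (by omega)
    have heq : ∑ i : Fin (d' + 2 + l.length) with i.val < d' + 2 + k, ε i • vec (d' + 2) l i.val
        = ∑ i ∈ range (d' + 2 + k), ε' i • vec (d' + 2) l i := by
      rw [← fin_prefix (d' + 2 + l.length) (d' + 2 + k) (by omega) (fun i => ε' i • vec (d' + 2) l i)]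
      apply Finset.sum_congr rfl
      intro i _
      simp only [hε'def]
      rw [dif_pos i.isLt]
    rw [heq] at hb'
    have hn := prefix_normsq d' l ε' hε' k
    have h0 : 0 ≤ C := le_trans (norm_nonneg _) hb'
    refine ⟨h0, ?_⟩
    have hsq : ‖∑ i ∈ range (d' + 2 + k), ε' i • vec (d' + 2) l i‖ ^ 2 ≤ C ^ 2 :=
      pow_le_pow_left₀ (norm_nonneg _) hb' 2
    push_cast
    linarith
  have h0 : 0 ≤ C := (key 1 one_pos).1
  rw [Real.sqrt_le_iff]
  refine ⟨h0, ?_⟩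
  by_contra hcon
  push Not at hcon
  have := (key ((((d' + 2 : ℕ) : ℝ) + 1 - C ^ 2) / 2) (by linarith)).2
  linarith

end Vale.Agent.Results.P262.PrefixLower
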