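import Mathlib
import Vale.Agent.Results.P262.PrefixLower

namespace Vale.Agent.Results.P262.PlaneExact

open Finset

lemma key (x y z : ℝ) (hx : x ≤ 1) (hy : y ≤ 1) (hz1 : 1 < x + y + 2 * z)
    (hz2 : 1 < x + y - 2 * z) : 0 < x ∧ 0 < y ∧ 4 * z ^ 2 < x * y := by
  have hA : 0 < x + y - 1 := by linarith
  have hx0 : 0 < x := by linarith
  have hy0 : 0 < y := by linarith
  refine ⟨hx0, hy0, ?_⟩
  have h1 : (2 * z) ^ 2 < (x + y - 1) ^ 2 := by
    apply sq_lt_sq'
    · linarith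
    · linarith
  have h2 : x + y - 1 ≤ x * y := by
    nlinarith [mul_nonneg (sub_nonneg.mpr hx) (sub_nonneg.mpr hy)]
  have hA1 : x + y - 1 ≤ 1 := by linarith
  have h3 : (x + y - 1) ^ 2 ≤ x + y - 1 := by
    have : (x + y - 1) * (x + y - 1) ≤ 1 * (x + y - 1) :=
      mul_le_mul_of_nonneg_right hA1 hA.le
    calc (x + y - 1) ^ 2 = (x + y - 1) * (x + y - 1) := by ring
      _ ≤ 1 * (x + y - 1) := this
      _ = x + y - 1 := by ring
  have h4 : 4 * z ^ 2 = (2 * z) ^ 2 := by ring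
  linarith

/-- Among three vectors of the closed unit disc, two have a sum or a difference in the disc. -/
lemma three_real (s0 s1 u0 u1 w0 w1 : ℝ) (hs : s0 ^ 2 + s1 ^ 2 ≤ 1) (hu : u0 ^ 2 + u1 ^ 2 ≤ 1)
    (hw : w0 ^ 2 + w1 ^ 2 ≤ 1) :
    (s0 + u0) ^ 2 + (s1 + u1) ^ 2 ≤ 1 ∨ (s0 - u0) ^ 2 + (s1 - u1) ^ 2 ≤ 1 ∨
    (s0 + w0) ^ 2 + (s1 + w1) ^ 2 ≤ 1 ∨ (s0 - w0) ^ 2 + (s1 - w1) ^ 2 ≤ 1 ∨
    (u0 + w0) ^ 2 + (u1 + w1) ^ 2 ≤ 1 ∨ (u0 - w0) ^ 2 + (u1 - w1) ^ 2 ≤ 1 := by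
  by_contra hcon
  push Not at hcon
  obtain ⟨h1, h2, h3, h4, h5, h6⟩ := hcon
  set a := s0 ^ 2 + s1 ^ 2 with ha
  set b := u0 ^ 2 + u1 ^ 2 with hb
  set c := w0 ^ 2 + w1 ^ 2 with hc
  set p := s0 * u0 + s1 * u1 with hp
  set q := s0 * w0 + s1 * w1 with hq
  set r := u0 * w0 + u1 * w1 with hr
  have e1 : (s0 + u0) ^ 2 + (s1 + u1) ^ 2 = a + b + 2 * p := by simp only [ha, hb, hp]; ring
  have e2 : (s0 - u0) ^ 2 + (s1 - u1) ^ 2 = a + b - 2 * p := by simp only [ha, hb, hp]; ring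
  have e3 : (s0 + w0) ^ 2 + (s1 + w1) ^ 2 = a + c + 2 * q := by simp only [ha, hc, hq]; ring
  have e4 : (s0 - w0) ^ 2 + (s1 - w1) ^ 2 = a + c - 2 * q := by simp only [ha, hc, hq]; ring
  have e5 : (u0 + w0) ^ 2 + (u1 + w1) ^ 2 = b + c + 2 * r := by simp only [hb, hc, hr]; ring
  have e6 : (u0 - w0) ^ 2 + (u1 - w1) ^ 2 = b + c - 2 * r := by simp only [hb, hc, hr]; ring
  rw [e1] at h1; rw [e2] at h2; rw [e3] at h3; rw [e4] at h4; rw [e5] at h5; rw [e6] at h6
  have gram : a * b * c + 2 * p * q * r - a * r ^ 2 - b * q ^ 2 - c * p ^ 2 = 0 := by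
    simp only [ha, hb, hc, hp, hq, hr]; ring
  clear_value a b c p q r
  obtain ⟨a0, b0, hp4⟩ := key a b p hs hu h1 h2
  obtain ⟨_, c0, hq4⟩ := key a c q hs hw h3 h4
  obtain ⟨_, _, hr4⟩ := key b c r hu hw h5 h6
  have habc : 0 < a * b * c := by positivity
  have t1 : c * (4 * p ^ 2) < c * (a * b) := mul_lt_mul_of_pos_left hp4 c0
  have t2 : b * (4 * q ^ 2) < b * (a * c) := mul_lt_mul_of_pos_left hq4 b0
  have t3 : a * (4 * r ^ 2) < a * (b * c) := mul_lt_mul_of_pos_left hr4 a0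
  have t4 : (8 * (p * q * r)) ^ 2 < (a * b * c) ^ 2 := by
    have hpp : 0 ≤ 4 * p ^ 2 := by positivity
    have hqq : 0 ≤ 4 * q ^ 2 := by positivity
    have hrr : 0 ≤ 4 * r ^ 2 := by positivity
    have m1 : (4 * p ^ 2) * (4 * q ^ 2) < (a * b) * (a * c) :=
      mul_lt_mul'' hp4 hq4 hpp hqq
    have m2 : ((4 * p ^ 2) * (4 * q ^ 2)) * (4 * r ^ 2) < ((a * b) * (a * c)) * (b * c) :=
      mul_lt_mul'' m1 hr4 (by positivity) hrr
    nlinarith
  have t5 : -(a * b * c) < 8 * (p * q * r) := by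
    have := abs_lt_of_sq_lt_sq t4 habc.le
    exact (abs_lt.mp this).1
  nlinarith

lemma nsq (x : EuclideanSpace ℝ (Fin 2)) : ‖x‖ ^ 2 = x 0 ^ 2 + x 1 ^ 2 := by
  rw [EuclideanSpace.real_norm_sq_eq]
  simp [Fin.sum_univ_two]

lemma nle (x : EuclideanSpace ℝ (Fin 2)) : ‖x‖ ≤ 1 ↔ x 0 ^ 2 + x 1 ^ 2 ≤ 1 := by
  rw [← nsq]
  constructor
  · intro h
    have := norm_nonneg x
    nlinarith
  · intro h
    have := norm_nonneg x
    nlinarith

lemma three (s u w : EuclideanSpace ℝ (Fin 2)) (hs : ‖s‖ ≤ 1) (hu : ‖u‖ ≤ 1) (hw : ‖w‖ ≤ 1) :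
    ‖s + u‖ ≤ 1 ∨ ‖s - u‖ ≤ 1 ∨ ‖s + w‖ ≤ 1 ∨ ‖s - w‖ ≤ 1 ∨ ‖u + w‖ ≤ 1 ∨ ‖u - w‖ ≤ 1 := by
  have := three_real (s 0) (s 1) (u 0) (u 1) (w 0) (w 1) ((nle s).mp hs) ((nle u).mp hu)
    ((nle w).mp hw)
  simp only [nle]
  simpa using this

/-- signed prefix sum -/
def P (v : ℕ → EuclideanSpace ℝ (Fin 2)) (ε : ℕ → ℝ) (k : ℕ) : EuclideanSpace ℝ (Fin 2) :=
  ∑ i ∈ range k, ε i • v i

def Good (v : ℕ → EuclideanSpace ℝ (Fin 2)) (k : ℕ) (p : EuclideanSpace ℝ (Fin 2)) : Prop :=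
  ∃ ε : ℕ → ℝ, (∀ i, ε i = 1 ∨ ε i = -1) ∧ P v ε k = p ∧ ∀ j ≤ k, ‖P v ε j‖ ^ 2 ≤ 3

lemma Good.step {v : ℕ → EuclideanSpace ℝ (Fin 2)} {k : ℕ} {q : EuclideanSpace ℝ (Fin 2)}
    (h : Good v k q) (σ : ℝ) (hσ : σ = 1 ∨ σ = -1) (hn : ‖q + σ • v k‖ ^ 2 ≤ 3) :
    Good v (k + 1) (q + σ • v k) := by
  obtain ⟨ε, hε, hP, hb⟩ := h
  have hsame : ∀ j ≤ k, P v (Function.update ε k σ) j = P v ε j := by
    intro j hj
    unfold P
    apply Finset.sum_congr rfl
    intro i hi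
    have : i ≠ k := by
      have := Finset.mem_range.mp hi
      omega
    rw [Function.update_of_ne this]
  have hlast : P v (Function.update ε k σ) (k + 1) = q + σ • v k := by
    have h1 : P v (Function.update ε k σ) (k + 1)
        = P v (Function.update ε k σ) k + (Function.update ε k σ) k • v k := by
      unfold P
      rw [Finset.sum_range_succ]
    rw [h1, hsame k le_rfl, hP, Function.update_self]
  refine ⟨Function.update ε k σ, ?_, hlast, ?_⟩
  · intro i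
    by_cases hi : i = k
    · subst hi
      rw [Function.update_self]
      exact hσ
    · rw [Function.update_of_ne hi]
      exact hε i
  · intro j hj
    rcases Nat.lt_or_ge j (k + 1) with h | h
    · rw [hsame j (by omega)]
      exact hb j (by omega)
    · have : j = k + 1 := by omega
      subst this
      rw [hlast]
      exact hn

def State (v : ℕ → EuclideanSpace ℝ (Fin 2)) (k : ℕ) : Prop :=
  ∃ a b : EuclideanSpace ℝ (Fin 2), ‖a‖ ≤ 1 ∧ ‖b‖ ≤ 1 ∧ Good v k (a + b) ∧ Good v k (a - b)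

lemma finish {v : ℕ → EuclideanSpace ℝ (Fin 2)} {k : ℕ} (a b : EuclideanSpace ℝ (Fin 2))
    (ha : ‖a‖ ≤ 1) (hb : ‖b‖ ≤ 1) (h1 : ‖a + b‖ ^ 2 ≤ 3 → Good v k (a + b))
    (h2 : ‖a - b‖ ^ 2 ≤ 3 → Good v k (a - b)) : State v k := by
  have hpar := parallelogram_law_with_norm ℝ a b
  have na := norm_nonneg a
  have nb := norm_nonneg b
  have hsum : ‖a + b‖ ^ 2 + ‖a - b‖ ^ 2 ≤ 4 := by nlinarith
  by_cases c1 : ‖a + b‖ ^ 2 ≤ 3
  · by_cases c2 : ‖a - b‖ ^ 2 ≤ 3
    · exact ⟨a, b, ha, hb, h1 c1, h2 c2⟩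
    · push Not at c2
      have hle : ‖a + b‖ ≤ 1 := by
        have := norm_nonneg (a + b)
        nlinarith
      refine ⟨a + b, 0, hle, by simp, ?_, ?_⟩
      · simpa using h1 c1
      · simpa using h1 c1
  · push Not at c1
    have c2 : ‖a - b‖ ^ 2 ≤ 3 := by linarith
    have hle : ‖a - b‖ ≤ 1 := by
      have := norm_nonneg (a - b)
      nlinarith
    refine ⟨a - b, 0, hle, by simp, ?_, ?_⟩
    · simpa using h2 c2
    · simpa using h2 c2

lemma State.step {v : ℕ → EuclideanSpace ℝ (Fin 2)} {k : ℕ} (h : State v k) (hw : ‖v k‖ ≤ 1) :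
    State v (k + 1) := by
  obtain ⟨s, u, hs, hu, g1, g2⟩ := h
  set w := v k with hwdef
  have plus : ∀ q : EuclideanSpace ℝ (Fin 2), Good v k q → ‖q + w‖ ^ 2 ≤ 3 →
      Good v (k + 1) (q + w) := by
    intro q hq hn
    have := hq.step 1 (Or.inl rfl) (by simpa using hn)
    simpa using this
  have minus : ∀ q : EuclideanSpace ℝ (Fin 2), Good v k q → ‖q - w‖ ^ 2 ≤ 3 →
      Good v (k + 1) (q - w) := by
    intro q hq hn
    have := hq.step (-1) (Or.inr rfl) (by simpa [sub_eq_add_neg] using hn)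
    simpa [sub_eq_add_neg] using this
  rcases three s u w hs hu hw with c | c | c | c | c | c
  · exact finish (s + u) w c hw (plus _ g1) (minus _ g1)
  · exact finish (s - u) w c hw (plus _ g2) (minus _ g2)
  · refine finish (s + w) u c hu ?_ ?_
    · have e : s + w + u = s + u + w := by abel
      rw [e]; exact plus _ g1
    · have e : s + w - u = s - u + w := by abel
      rw [e]; exact plus _ g2
  · refine finish (s - w) u c hu ?_ ?_
    · have e : s - w + u = s + u - w := by abel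
      rw [e]; exact minus _ g1
    · have e : s - w - u = s - u - w := by abel
      rw [e]; exact minus _ g2
  · refine finish s (u + w) hs c ?_ ?_
    · have e : s + (u + w) = s + u + w := by abel
      rw [e]; exact plus _ g1
    · have e : s - (u + w) = s - u - w := by abel
      rw [e]; exact minus _ g2
  · refine finish s (u - w) hs c ?_ ?_
    · have e : s + (u - w) = s + u - w := by abel
      rw [e]; exact minus _ g1
    · have e : s - (u - w) = s - u + w := by abel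
      rw [e]; exact plus _ g2

lemma State.all {v : ℕ → EuclideanSpace ℝ (Fin 2)} (hv : ∀ i, ‖v i‖ ≤ 1) (k : ℕ) : State v k := by
  induction k with
  | zero =>
    have g : Good v 0 0 := by
      refine ⟨fun _ => 1, fun _ => Or.inl rfl, by simp [P], ?_⟩
      intro j hj
      have : j = 0 := by omega
      subst this
      simp [P]
    exact ⟨0, 0, by simp, by simp, by simpa using g, by simpa using g⟩
  | succ k ih => exact ih.step (hv k)

/-- The signed-prefix constant of the Euclidean plane is exactly `√3`: every finite sequence in the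
unit disc has signs keeping all prefix sums within `√3`, and no smaller constant works. -/
theorem result :
    IsLeast {C : ℝ | ∀ (N : ℕ) (v : Fin N → EuclideanSpace ℝ (Fin 2)), (∀ i, ‖v i‖ ≤ 1) →
      ∃ ε : Fin N → ℝ, (∀ i, ε i = 1 ∨ ε i = -1) ∧
        ∀ k ≤ N, ‖∑ i : Fin N with i.val < k, ε i • v i‖ ≤ C} (Real.sqrt 3) := by
  constructor
  · intro N v hv
    set v' : ℕ → EuclideanSpace ℝ (Fin 2) := fun i => if h : i < N then v ⟨i, h⟩ else 0 with hv'
    have hv'1 : ∀ i, ‖v' i‖ ≤ 1 := by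
      intro i
      simp only [hv']
      split_ifs with h
      · exact hv _
      · simp
    obtain ⟨a, b, _, _, ⟨ε, hε, _, hb⟩, _⟩ := State.all hv'1 N
    refine ⟨fun i => ε i.val, fun i => hε _, ?_⟩
    intro k hk
    have heq : ∑ i : Fin N with i.val < k, ε i.val • v i = P v' ε k := by
      unfold P
      rw [← PrefixLower.fin_prefix N k hk (fun i => ε i • v' i)]
      apply Finset.sum_congr rfl
      intro i _
      simp only [hv']
      rw [dif_pos i.isLt]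
    rw [heq]
    apply Real.le_sqrt_of_sq_le
    exact hb k hk
  · intro C hC
    have := PrefixLower.result 2 le_rfl C hC
    have e : ((2 : ℕ) : ℝ) + 1 = 3 := by norm_num
    rw [e] at this
    exact this

end Vale.Agent.Results.P262.PlaneExact
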