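import Mathlib
import Vale.Agent.Results.P262.PrefixLower
import Vale.Agent.P262.Scheme

namespace Vale.Agent.Results.P262.SmallDims

open Finset Vale.Agent.P262

/-- In dimension `d ≤ 4` every finite sequence of vectors of the Euclidean unit ball has signs
keeping all prefix sums within `√(d(d+1)/2)`; in particular `σ(3) ≤ √6` and `σ(4) ≤ √10`. -/
theorem result (d : ℕ) (hd : d ≤ 4) (N : ℕ) (v : Fin N → EuclideanSpace ℝ (Fin d))
    (hv : ∀ i, ‖v i‖ ≤ 1) :
    ∃ ε : Fin N → ℝ, (∀ i, ε i = 1 ∨ ε i = -1) ∧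
      ∀ k ≤ N, ‖∑ i : Fin N with i.val < k, ε i • v i‖ ≤ Real.sqrt (d * (d + 1) / 2) := by
  rcases Nat.eq_zero_or_pos d with h0 | hd1
  · subst h0
    refine ⟨fun _ => 1, fun _ => Or.inl rfl, ?_⟩
    intro k _
    have : (∑ i : Fin N with i.val < k, (1 : ℝ) • v i) = 0 := Subsingleton.elim _ _
    rw [this, norm_zero]
    exact Real.sqrt_nonneg _
  · set v' : ℕ → EuclideanSpace ℝ (Fin d) := fun i => if h : i < N then v ⟨i, h⟩ else 0 with hv'
    have hv'1 : ∀ i, ‖v' i‖ ≤ 1 := by
      intro i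
      simp only [hv']
      split_ifs with h
      · exact hv _
      · simp
    obtain ⟨p, _, _, hgood⟩ := State.all d hd1 hd v' hv'1 N
    obtain ⟨ε, hε, _, hb⟩ := hgood (fun _ => 1) (fun _ => Or.inl rfl)
    refine ⟨fun i => ε i.val, fun i => hε _, ?_⟩
    intro k hk
    have heq : ∑ i : Fin N with i.val < k, ε i.val • v i = P v' ε k := by
      unfold P
      rw [← PrefixLower.fin_prefix N k hk (fun i => ε i • v' i)]
      apply Finset.sum_congr rfl
      intro i _
      simp only [hv']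
      rw [dif_pos i.isLt]
    rw [heq]
    apply Real.le_sqrt_of_sq_le
    exact hb k hk

end Vale.Agent.Results.P262.SmallDims
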