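import Mathlib
import Vale.Agent.Results.P262.SmallDims
import Vale.Agent.P262.Chobanyan

namespace Vale.Agent.Results.P262.SteinitzFour

open Finset

/-- Every finite zero-sum family of vectors of the Euclidean unit ball of `ℝ⁴` can be ordered so
that all partial sums have norm at most `√10`; that is, `S₂(4) ≤ √10 < 3.25`. -/
theorem result (N : ℕ) (v : Fin N → EuclideanSpace ℝ (Fin 4)) (hv : ∀ i, ‖v i‖ ≤ 1)
    (hsum : ∑ i, v i = 0) :
    ∃ π : Equiv.Perm (Fin N), ∀ k ≤ N,
      ‖∑ i : Fin N with i.val < k, v (π i)‖ ≤ Real.sqrt 10 := by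
  apply Vale.Agent.P262.chobanyan (Real.sqrt 10) N v hsum
  intro π
  obtain ⟨ε, hε, hb⟩ := SmallDims.result 4 le_rfl N (fun i => v (π i)) (fun i => hv (π i))
  refine ⟨ε, hε, ?_⟩
  intro k hk
  have h := hb k hk
  have e : (((4 : ℕ) : ℝ) * (((4 : ℕ) : ℝ) + 1) / 2) = 10 := by norm_num
  rw [e] at h
  exact h

end Vale.Agent.Results.P262.SteinitzFour
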